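import Vale.Agent.P216.H779D.DegE
import Vale.Agent.P216.B609.Base0
import Vale.Agent.P216.B64.Contract
import Vale.Agent.P216.H787.Cls

/-!
# P216-D, block [D-DEG]: the top cohomology of a sphere and the degree of a self map

`N ≃ₜ S^(m+1)`: every cocycle of degree `m + 1` is a multiple of the generator up to a coboundary,
and a self map homotopic to the standard map of degree `D` multiplies by `D`.
-/

set_option linter.all false

open Set Filter Topology Finsupp

namespace Vale.Agent.P216.H779D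

open Sl Tau B64 AS
open N929 (Coc Fine Cy Ex)

variable {m : ℕ}

theorem powS_one (m : ℕ) : powS m 1 = ContinuousMap.id _ := by
  ext1 x
  refine Subtype.ext (ext_c ?_ rfl)
  change zc (mk (pw 1 (zc x.1)) (rc x.1)) = zc x.1
  rw [zc_mk, pw, zpow_one]
  by_cases h : zc x.1 = 0
  · rw [h]; simp
  · rw [mul_div_cancel₀]
    exact_mod_cast norm_ne_zero_iff.2 h

variable {N : Type} [MetricSpace N] [CompactSpace N] {k : Type} [Field k]

omit [CompactSpace N] in
theorem homotopic_one (e : N ≃ₜ Sq m) :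
    ((e : C(N, Sq m)).comp (e.symm : C(Sq m, N))).Homotopic (powS m 1) := by
  have h : (e : C(N, Sq m)).comp (e.symm : C(Sq m, N)) = ContinuousMap.id _ := by
    ext1 x
    exact e.apply_symm_apply x
  rw [h, powS_one]

/-- The two languages for the cohomology without symmetries. -/
theorem hinc_bijective (k : Type) [Field k] {E : Type} [PseudoMetricSpace E] (X : Set E) (n : ℕ) :
    ∃ e : HU k X n →ₗ[k] Low.Hu k X n, Function.Bijective e := by
  have hS : Cc (a0 E) (c0 k) X ≤ Cc (fun _ : Unit => (id : E → E)) (fun _ : Unit => (1 : k)) X :=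
    fun n f _ => Low.eqv_id f
  have hT : Zr (a0 E) (c0 k) X X ≤
      Zr (fun _ : Unit => (id : E → E)) (fun _ : Unit => (1 : k)) X X :=
    fun n f hf => ⟨Low.eqv_id f, hf.2⟩
  refine ⟨Hinc hS hT n, Hmap_bijective (IsMor.id_of_le hS hT) (fun {n x} _ hx => ?_)
    fun {n y} _ => ⟨y, fun e => e.elim, ?_⟩⟩
  · exact ⟨fun e => e.elim, hx.2⟩
  · rw [LinearMap.id_apply, sub_self]
    exact Submodule.zero_mem _

theorem rank_HU (e : N ≃ₜ Sq m) : Module.rank k (HU k (univ : Set N) (m + 1)) ≤ 1 := by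
  have hr := B609.rank_of_homeo (k := k) e (m + 1)
  rw [if_neg (Nat.succ_ne_zero m), if_pos rfl, zero_add] at hr
  obtain ⟨i, hi⟩ := hinc_bijective k (univ : Set N) (m + 1)
  rwa [(LinearEquiv.ofBijective i hi).rank_eq]

/-- the generator of a sphere is not exact -/
theorem not_exL_gen (hm : 1 ≤ m) (e : N ≃ₜ Sq m) :
    ¬ Sl.ExL (univ : Set N) (m + 1) (omc k (e : C(N, Sq m))) :=
  not_exL_omc hm (homotopic_one e) k (by simp)

/-- **(X1)** every cocycle of top degree is a multiple of the generator. -/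
theorem exists_mul_gen (hm : 1 ≤ m) (e : N ≃ₜ Sq m) {w : List N → k}
    (hw : CocL (univ : Set N) (m + 1) w) :
    ∃ c : k, ExL (univ : Set N) (m + 1) fun l => w l - c * omc k (e : C(N, Sq m)) l := by
  obtain ⟨v₀, hv⟩ := rank_le_one_iff.1 (rank_HU (k := k) e)
  have hc := omc_cocL k (e : C(N, Sq m))
  obtain ⟨r, hr1⟩ := hv (cls (a0 N) (c0 k) _ hc)
  obtain ⟨t, ht⟩ := hv (cls (a0 N) (c0 k) _ hw)
  have hr0 : r ≠ 0 := by
    rintro rfl
    rw [zero_smul] at hr1
    exact not_exL_gen hm e (cls_eq_zero.1 hr1.symm)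
  refine ⟨t * r⁻¹, ?_⟩
  have h1 : cls (a0 N) (c0 k) _ hw = cls (a0 N) (c0 k) _ (hc.smul (t * r⁻¹)) := by
    rw [← cls_smul (hf := hc), ← hr1, ← ht, smul_smul, mul_assoc, inv_mul_cancel₀ hr0, mul_one]
  exact cls_eq_cls.1 h1

theorem ExL.comp {X Y : Type} [PseudoMetricSpace X] [PseudoMetricSpace Y] [CompactSpace X]
    {d : ℕ} {f : List Y → k} (h : ExL (univ : Set Y) d f) (g : C(X, Y)) :
    ExL (univ : Set X) d fun l => f (l.map g) := by
  obtain ⟨c, hc, ε, hε, h⟩ := h
  obtain ⟨δ, hδ, h'⟩ := exists_modulus g hε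
  refine ⟨fun l => c (l.map g), fun h0 l => hc h0 _, δ, hδ, fun l hl hs => ?_⟩
  rw [Sl.dl_map]
  exact h _ (by rw [List.length_map, hl]) (fine_map h' hs)

theorem ExL.add' {X : Type} [PseudoMetricSpace X] {d : ℕ} {f g : List X → k}
    (hf : ExL (univ : Set X) d f) (hg : ExL (univ : Set X) d g) (a b : k) :
    ExL (univ : Set X) d fun l => a * f l + b * g l := by
  obtain ⟨c, hc, ε, hε, h⟩ := hf
  obtain ⟨c', hc', ε', hε', h'⟩ := hg
  refine ⟨fun l => a * c l + b * c' l, fun h0 l => by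
    change a * c l + b * c' l = 0
    rw [hc h0, hc' h0]; ring, min ε ε',
    lt_min hε hε', fun l hl hs => ?_⟩
  rw [Sl.dl_add, Sl.dl_mul_left, Sl.dl_mul_left]
  change a * f l + b * g l = _
  rw [h l hl ⟨hs.1, fun x hx y hy => (hs.2 x hx y hy).trans_le (min_le_left _ _)⟩,
    h' l hl ⟨hs.1, fun x hx y hy => (hs.2 x hx y hy).trans_le (min_le_right _ _)⟩]

theorem ExL.congr' {X : Type} [PseudoMetricSpace X] {d : ℕ} {f g : List X → k}
    (hf : ExL (univ : Set X) d f) (h : ∀ l, g l = f l) : ExL (univ : Set X) d g := by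
  have : g = f := funext h
  rwa [this]

/-- **(X2), hdeg: the degree of a self map.** -/
theorem exL_degree (hm : 1 ≤ m) (e : N ≃ₜ Sq m) {D : ℤ} {φ : C(N, N)}
    (h : ((e : C(N, Sq m)).comp (φ.comp (e.symm : C(Sq m, N)))).Homotopic (powS m D))
    {f : List N → k} (hf : CocL (univ : Set N) (m + 1) f) :
    ExL (univ : Set N) (m + 1) fun l => f (l.map φ) - (D : k) * f l := by
  set c : List N → k := omc k (e : C(N, Sq m)) with hc
  -- the generator
  have hgen : ExL (univ : Set N) (m + 1) fun l => c (l.map φ) - (D : k) * c l := by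
    have hcoc : CocL (univ : Set N) (m + 1) fun l => c (l.map φ) := by
      obtain ⟨ε, hε, h1⟩ := omc_coc (e : C(N, Sq m))
      obtain ⟨δ, hδ, h2⟩ := exists_modulus φ hε
      exact ⟨δ, hδ, coc_map h2 (h1 k)⟩
    obtain ⟨a, ha⟩ := exists_mul_gen hm e hcoc
    have hex := ExL.comp ha (e.symm : C(Sq m, N))
    obtain ⟨ε, hε, h2⟩ := N929.ex_iff.2 hex
    obtain ⟨δ₁, hδ₁, h3⟩ := ev_omc (X := N) (f := (e : C(N, Sq m)).comp φ)
      (g := (e.symm : C(Sq m, N))) (D := D) hm h
    obtain ⟨δ₂, hδ₂, h4⟩ := ev_omc (X := N) (f := (e : C(N, Sq m)))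
      (g := (e.symm : C(Sq m, N))) (D := 1) hm (homotopic_one e)
    obtain ⟨δ₃, hδ₃, h5⟩ := zS_cy hm hε
    obtain ⟨ι, hι⟩ := exists_isMesh k (b := 1) zero_le_one (lt_min hδ₁ (lt_min hδ₂ hδ₃))
    have hι1 : IsMesh ι 0 1 δ₁ := ⟨Sp_mono (fun l hl => hl.mono (min_le_left _ _)) hι.mem, hι.bd⟩
    have hι2 : IsMesh ι 0 1 δ₂ := ⟨Sp_mono (fun l hl => hl.mono
      ((min_le_right _ _).trans (min_le_left _ _))) hι.mem, hι.bd⟩
    have hι3 : IsMesh ι 0 1 δ₃ := ⟨Sp_mono (fun l hl => hl.mono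
      ((min_le_right _ _).trans (min_le_right _ _))) hι.mem, hι.bd⟩
    have e1 := h3 k ι hι1
    have e2 := h4 k ι hι2
    have e3 := h2 _ (h5 k ι hι3)
    have e4 : (fun l : List (Sq m) => omc k ((e : C(N, Sq m)).comp φ) (l.map (e.symm : C(Sq m, N)))) =
        fun l => c ((l.map (e.symm : C(Sq m, N))).map φ) := by
      funext l
      rw [hc, omc, omc, List.map_map (l := l.map _)]
      rfl
    rw [e4] at e1
    have e5 : ev (fun l : List (Sq m) => c ((l.map (e.symm : C(Sq m, N))).map φ) -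
        a * c (l.map (e.symm : C(Sq m, N)))) (zS m ι) =
        ev (fun l : List (Sq m) => c ((l.map (e.symm : C(Sq m, N))).map φ)) (zS m ι) -
          a * ev (fun l : List (Sq m) => c (l.map (e.symm : C(Sq m, N)))) (zS m ι) := by
      have := ev_add_fun (k := k) (fun l : List (Sq m) => c ((l.map (e.symm : C(Sq m, N))).map φ))
        (fun l => (-a) * c (l.map (e.symm : C(Sq m, N)))) (zS m ι)
      rw [ev_smul_fun] at this
      rw [sub_eq_add_neg, ← neg_mul, ← this]
      congr 2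
      funext l
      ring
    rw [e5, e1, e2, Int.cast_one, mul_one, sub_eq_zero] at e3
    rw [e3]
    exact ha
  obtain ⟨a, ha⟩ := exists_mul_gen hm e hf
  have h1 := ExL.comp ha φ
  have h2 := ExL.add' (ExL.add' h1 ha 1 (-(D : k))) hgen 1 a
  refine ExL.congr' h2 fun l => ?_
  ring

/-- (X2) in the form of the block (A) of P216-D. -/
theorem exL_cS (hm : 1 ≤ m) {D : ℤ} {φ : C(Sq m, Sq m)} (h : φ.Homotopic (powS m D)) :
    ExL (univ : Set (Sq m)) (m + 1) fun l => cS k m (l.map φ) - (D : k) * cS k m l := by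
  have h1 := exL_degree (k := k) hm (Homeomorph.refl (Sq m)) (φ := φ) (D := D) (by
    have e : ((Homeomorph.refl (Sq m) : Sq m ≃ₜ Sq m) : C(Sq m, Sq m)).comp
        (φ.comp ((Homeomorph.refl (Sq m)).symm : C(Sq m, Sq m))) = φ := rfl
    rw [e]
    exact h) (f := cS k m) ⟨_, epsS_pos m, cS_coc⟩
  exact h1

/-- (X1) on the model sphere. -/
theorem exists_mul_cS (hm : 1 ≤ m) {w : List (Sq m) → k}
    (hw : CocL (univ : Set (Sq m)) (m + 1) w) :
    ∃ c : k, ExL (univ : Set (Sq m)) (m + 1) fun l => w l - c * cS k m l := by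
  obtain ⟨c, hc⟩ := exists_mul_gen hm (Homeomorph.refl (Sq m)) hw
  refine ⟨c, ExL.congr' hc fun l => ?_⟩
  rw [omc]
  congr 3
  exact (List.map_id' l).symm

/-- the generator of the model sphere is not exact -/
theorem not_exL_cS (hm : 1 ≤ m) : ¬ ExL (univ : Set (Sq m)) (m + 1) (cS k m) := by
  intro h
  refine not_exL_gen (k := k) hm (Homeomorph.refl (Sq m)) (ExL.congr' h fun l => ?_)
  rw [omc]
  congr 1
  exact List.map_id' l

end Vale.Agent.P216.H779D
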