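import Vale.Agent.P216.H779D.DegA
import Vale.Agent.P216.H347.Chain
import Vale.Agent.P216.N929.Om2

/-!
# P216-D, block [D-DEG]: the generating cocycle of the sphere

`cS = κ ∪ W`: the crossing cochain of the argument of the complex coordinate, times the local
cocycle of the origin of the other coordinates.
-/

set_option linter.all false

open Set Filter Topology Finsupp

namespace Vale.Agent.P216.H779D

open Sl Tau
open N929 (Coc Fine Cy Ex)

variable {m : ℕ} {k : Type} [Field k]

/-- crossing of the positive real axis -/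
noncomputable def kap (k : Type) [Field k] (p q : ℂ) : k := by
  classical exact if 0 < p.re ∧ 0 < q.re then χ₀ k q.im - χ₀ k p.im else 0

theorem kap_pos {p q : ℂ} (h : 0 < p.re) (h' : 0 < q.re) :
    kap k p q = χ₀ k q.im - χ₀ k p.im := by rw [kap, if_pos ⟨h, h'⟩]

theorem kap_neg {p q : ℂ} (h : ¬ (0 < p.re ∧ 0 < q.re)) : kap k p q = 0 := by
  rw [kap, if_neg h]

theorem kap_self (p : ℂ) : kap k p p = 0 := by
  by_cases h : 0 < p.re
  · rw [kap_pos h h, sub_self]
  · exact kap_neg fun h' => h h'.1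

theorem chi_ne {x y : ℝ} (h : χ₀ k x ≠ χ₀ k y) : |x| ≤ |x - y| := by
  simp only [χ₀] at h
  split_ifs at h with h1 h2 h2
  · exact absurd rfl h
  · rw [abs_of_pos h1, abs_of_nonneg (by linarith)]
    linarith
  · rw [abs_of_nonpos (by linarith), abs_of_nonpos (by linarith)]
    linarith
  · exact absurd rfl h

/-- if `kap p q ≠ 0` and the points are small and far from `0`, the real parts are large -/
theorem re_of_kap {ε : ℝ} (hε : ε ≤ 1 / 4) {p q : ℂ} (hp : 1 / 2 ≤ ‖p‖) (hpq : dist p q < ε)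
    (h : kap k p q ≠ 0) : ε < p.re := by
  by_cases h1 : 0 < p.re ∧ 0 < q.re
  · rw [kap_pos h1.1 h1.2] at h
    have h2 : |p.im| ≤ |p.im - q.im| := chi_ne (k := k) fun e => h (by rw [e, sub_self])
    have h3 : |p.im - q.im| ≤ dist p q := by
      rw [Complex.dist_eq, ← Complex.sub_im]
      exact Complex.abs_im_le_norm _
    have h4 : |p.im| < ε := (h2.trans h3).trans_lt hpq
    have h0 : 0 < ε := dist_nonneg.trans_lt hpq
    have h5 : ‖p‖ ^ 2 = p.re ^ 2 + p.im ^ 2 := by
      rw [Complex.sq_norm, Complex.normSq_apply]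
      ring
    have h6 : p.im ^ 2 < ε ^ 2 := by
      rw [← sq_abs p.im]
      exact pow_lt_pow_left₀ h4 (abs_nonneg _) two_ne_zero
    have h7 : (1 / 2 : ℝ) ^ 2 ≤ ‖p‖ ^ 2 := pow_le_pow_left₀ (by norm_num) hp 2
    have h8 : ε ^ 2 ≤ (1 / 4) ^ 2 := pow_le_pow_left₀ h0.le hε 2
    by_contra hcon
    have h9 : p.re ^ 2 ≤ ε ^ 2 := pow_le_pow_left₀ h1.1.le (not_lt.1 hcon) 2
    nlinarith
  · exact absurd (kap_neg h1) h

theorem kap_cocycle {ε : ℝ} (hε : ε ≤ 1 / 4) {p q r : ℂ} (hp : 1 / 2 ≤ ‖p‖) (hq : 1 / 2 ≤ ‖q‖)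
    (hpq : dist p q < ε) (hpr : dist p r < ε) (hqr : dist q r < ε) :
    kap k q r - (kap k p r - kap k p q) = 0 := by
  have key : ∀ a b : ℂ, dist a b < ε → ε < a.re → 0 < b.re := by
    intro a b hab ha
    have h1 : |a.re - b.re| ≤ dist a b := by
      rw [Complex.dist_eq, ← Complex.sub_re]
      exact Complex.abs_re_le_norm _
    have := (abs_le.1 h1).2
    linarith
  by_cases h : 0 < p.re ∧ 0 < q.re ∧ 0 < r.re
  · rw [kap_pos h.2.1 h.2.2, kap_pos h.1 h.2.2, kap_pos h.1 h.2.1]
    ring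
  · have e1 : kap k p q = 0 := by
      by_contra hne
      have h1 := re_of_kap hε hp hpq hne
      have h0 : 0 < ε := dist_nonneg.trans_lt hpq
      exact h ⟨h0.trans h1, key _ _ hpq h1, key _ _ hpr h1⟩
    have e2 : kap k p r = 0 := by
      by_contra hne
      have h1 := re_of_kap hε hp hpr hne
      have h0 : 0 < ε := dist_nonneg.trans_lt hpq
      exact h ⟨h0.trans h1, key _ _ hpq h1, key _ _ hpr h1⟩
    have e3 : kap k q r = 0 := by
      by_contra hne
      have h1 := re_of_kap hε hq hqr hne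
      have h0 : 0 < ε := dist_nonneg.trans_lt hpq
      exact h ⟨key _ _ (by rwa [dist_comm]) h1, h0.trans h1, key _ _ hqr h1⟩
    rw [e1, e2, e3]
    ring

/-- the crossing cochain -/
noncomputable def kL (k : Type) [Field k] : List ℂ → k
  | [p, q] => kap k p q
  | _ => 0

theorem kL_two (p q : ℂ) : kL k [p, q] = kap k p q := rfl

theorem dl_kL (p q r : ℂ) : dl (kL k) [p, q, r] = kap k q r - (kap k p r - kap k p q) := by
  rw [dl, bdL_cons, bdL_cons, bdL_cons, bdL_nil]
  simp only [map_zero, sub_zero, map_sub, cons_single, ev_single, one_mul, kL_two]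

/-- the last coordinates of a point of the sphere -/
noncomputable def rs (x : Sq m) : Fin m → ℝ := rc x.1

/-- the complex coordinate -/
noncomputable def zs (x : Sq m) : ℂ := zc x.1

theorem dist_rs_le (x y : Sq m) : dist (rs x) (rs y) ≤ dist x y := dist_rc_le _ _

theorem dist_zs_le (x y : Sq m) : dist (zs x) (zs y) ≤ dist x y := dist_zc_le _ _

/-- **The generating cocycle** of the sphere of dimension `m + 1`. -/
noncomputable def cS (k : Type) [Field k] (m : ℕ) : List (Sq m) → k :=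
  cup 1 (fun l => kL k (l.map zs)) fun l => W (χ₀ k) m (l.map rs)

theorem cS_apply (l : List (Sq m)) :
    cS k m l = kL k ((l.take 2).map zs) * W (χ₀ k) m ((l.drop 1).map rs) := rfl

theorem W_ne_length {l : List (Fin m → ℝ)} (h : W (χ₀ k) m l ≠ 0) : l.length = m + 1 := by
  by_contra hne
  refine h (cupd_length _ _ ?_)
  rwa [List.length_ofFn]

theorem cS_nrm : Nrm (cS k m) := by
  intro l hl
  rw [cS_apply]
  rcases l with _ | ⟨a, _ | ⟨b, l⟩⟩
  · exact absurd List.isChain_nil hl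
  · exact absurd (List.isChain_singleton a) hl
  · by_cases hab : a = b
    · subst hab
      have : kL k (((a :: a :: l).take 2).map zs) = 0 := kap_self _
      rw [this, zero_mul]
    · have h1 : ¬ (b :: l).IsChain (· ≠ ·) := fun h => hl (List.isChain_cons_cons.2 ⟨hab, h⟩)
      have h2 : W (χ₀ k) m (((a :: b :: l).drop 1).map rs) = 0 := ((W_nrm _ _).map rs) _ h1
      rw [h2, mul_zero]

/-- the fineness -/
noncomputable def epsS (m : ℕ) : ℝ := 1 / (8 * (m + 1))

theorem epsS_pos (m : ℕ) : 0 < epsS m := by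
  unfold epsS
  positivity

theorem epsS_le (m : ℕ) : epsS m ≤ 1 / 8 := by
  unfold epsS
  rw [div_le_div_iff_of_pos_left one_pos (by positivity) (by norm_num)]
  have : (0 : ℝ) ≤ m := by positivity
  linarith

/-- where `W` does not vanish the complex coordinate is far from `0` -/
theorem half_le {x y : Sq m} (hd : dist x y < epsS m) (h : ‖rs y‖ < 2 * epsS m) :
    1 / 2 ≤ ‖zs x‖ := by
  have h1 : ‖rs x‖ ≤ 3 * epsS m := by
    have h2 : ‖rs x‖ ≤ dist (rs x) (rs y) + ‖rs y‖ := by
      rw [dist_eq_norm]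
      calc ‖rs x‖ = ‖(rs x - rs y) + rs y‖ := by rw [sub_add_cancel]
        _ ≤ _ := norm_add_le _ _
    have := dist_rs_le x y
    linarith
  have h3 := norm_sq_eq x.1
  rw [norm_eq_of_mem_sphere x, one_pow] at h3
  have h4 : ∑ j, rc x.1 j ^ 2 ≤ m * (3 * epsS m) ^ 2 := by
    refine (Finset.sum_le_card_nsmul _ _ ((3 * epsS m) ^ 2) fun j _ => ?_).trans ?_
    · rw [← sq_abs]
      exact pow_le_pow_left₀ (abs_nonneg _) ((norm_le_pi_norm (rs x) j).trans h1) 2
    · rw [Finset.card_univ, Fintype.card_fin, nsmul_eq_mul]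
  have h5 : (m : ℝ) * (3 * epsS m) ^ 2 ≤ 1 / 2 := by
    have hm : (0 : ℝ) ≤ m := by positivity
    unfold epsS
    rw [mul_pow, div_pow, mul_div_assoc', mul_div_assoc', div_le_iff₀ (by positivity)]
    nlinarith
  have h6 : (1 / 2 : ℝ) ≤ ‖zs x‖ ^ 2 := by
    change (1 / 2 : ℝ) ≤ ‖zc x.1‖ ^ 2
    linarith
  by_contra hcon
  have h7 : ‖zs x‖ ^ 2 ≤ (1 / 2) ^ 2 := pow_le_pow_left₀ (norm_nonneg _) (not_le.1 hcon).le 2
  norm_num at h7
  linarith

theorem dist_map {E F : Type} [PseudoMetricSpace E] [PseudoMetricSpace F] {g : E → F}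
    (hg : ∀ x y, dist (g x) (g y) ≤ dist x y) {ε : ℝ} {l : List E}
    (h : ∀ x ∈ l, ∀ y ∈ l, dist x y < ε) : ∀ x ∈ l.map g, ∀ y ∈ l.map g, dist x y < ε := by
  intro x hx y hy
  obtain ⟨a, ha, rfl⟩ := List.mem_map.1 hx
  obtain ⟨b, hb, rfl⟩ := List.mem_map.1 hy
  exact (hg a b).trans_lt (h a ha b hb)

theorem cS_coc : Coc (univ : Set (Sq m)) (epsS m) (m + 1) (cS k m) := by
  intro l hl hf
  have hg : ∀ l' : List (Sq m), l'.length = m + 2 →
      dl (fun l => W (χ₀ k) m (l.map rs)) l' = 0 := fun l' hl' => by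
    rw [dl_map]
    exact dl_W _ (by rw [List.length_map]; exact hl')
  rw [cS, dl_cup 1 _ _ _ (by omega)]
  simp only [cup]
  rw [hg (l.drop 1) (by rw [List.length_drop]; omega), mul_zero, mul_zero, add_zero]
  by_cases hW : W (χ₀ k) m ((l.drop 2).map rs) = 0
  · exact mul_eq_zero_of_right _ hW
  · rw [mul_eq_zero]
    left
    obtain ⟨p, q, r, l', rfl⟩ : ∃ p q r l', l = p :: q :: r :: l' := by
      rcases l with _ | ⟨p, _ | ⟨q, _ | ⟨r, l'⟩⟩⟩
      · simp at hl
      · simp at hl
      · simp at hl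
      · exact ⟨p, q, r, l', rfl⟩
    have hr : ‖rs r‖ < 2 * epsS m := by
      by_contra hcon
      refine hW (W_zero (epsS_pos m) (v := rs r) ?_ ?_ (not_lt.1 hcon))
      · exact dist_map dist_rs_le fun x hx y hy => hf.2 x (List.mem_of_mem_drop hx) y
          (List.mem_of_mem_drop hy)
      · exact List.mem_map_of_mem (by simp)
    have hpr : dist p r < epsS m := hf.2 p (by simp) r (by simp)
    have hpq : dist p q < epsS m := hf.2 p (by simp) q (by simp)
    have hqr : dist q r < epsS m := hf.2 q (by simp) r (by simp)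
    rw [dl_map]
    change dl (kL k) [zs p, zs q, zs r] = 0
    rw [dl_kL]
    exact kap_cocycle (ε := epsS m) ((epsS_le m).trans (by norm_num)) (half_le hpr hr)
      (half_le hqr hr) ((dist_zs_le _ _).trans_lt hpq) ((dist_zs_le _ _).trans_lt hpr)
      ((dist_zs_le _ _).trans_lt hqr)

end Vale.Agent.P216.H779D
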