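import Vale.Agent.P216.H779D.DegF
import Vale.Agent.P216.D311.Pow

/-!
# P216-D, block [D-DEG]: the degree on the round model sphere
-/

set_option linter.all false

open Set Filter Topology Finsupp

namespace Vale.Agent.P216.H779D

open Sl Q633 D311

variable {m : ℕ} {k : Type} [Field k]

/-- every cocycle of the sphere is multiplied by `D` -/
theorem deg_all (hm : 1 ≤ m) {D : ℤ} {φ : C(Sq m, Sq m)} (h : φ.Homotopic (powS m D))
    {w : List (Sq m) → k} (hw : CocL (univ : Set (Sq m)) (m + 1) w) :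
    ExL (univ : Set (Sq m)) (m + 1) fun l => w (l.map φ) - (D : k) * w l := by
  refine exL_degree hm (Homeomorph.refl (Sq m)) ?_ hw
  have e : ((Homeomorph.refl (Sq m) : Sq m ≃ₜ Sq m) : C(Sq m, Sq m)).comp
      (φ.comp ((Homeomorph.refl (Sq m)).symm : C(Sq m, Sq m))) = φ := rfl
  rw [e]
  exact h

theorem conj_powR (D : ℤ) : ((rndHomeo (m + 1) : Rnd (m + 1) ≃ₜ Sq m) : C(Rnd (m + 1), Sq m)).comp
    ((powR m D).comp ((rndHomeo (m + 1)).symm : C(Sq m, Rnd (m + 1)))) = powS m D := rfl

/-- the same on the round model sphere -/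
theorem deg_rnd (hm : 1 ≤ m) {D : ℤ} {φ : C(Rnd (m + 1), Rnd (m + 1))}
    (h : φ.Homotopic (powR m D)) {w : List (Rnd (m + 1)) → k}
    (hw : CocL (univ : Set (Rnd (m + 1))) (m + 1) w) :
    ExL (univ : Set (Rnd (m + 1))) (m + 1) fun l => w (l.map φ) - (D : k) * w l := by
  refine exL_degree hm (rndHomeo (m + 1)) ?_ hw
  rw [← conj_powR]
  exact ContinuousMap.Homotopic.comp (ContinuousMap.Homotopic.refl _)
    (ContinuousMap.Homotopic.comp h (ContinuousMap.Homotopic.refl _))

end Vale.Agent.P216.H779D
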