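import Mathlib.Analysis.InnerProductSpace.PiL2
import Mathlib.Analysis.SpecialFunctions.Complex.Circle
import Mathlib.Topology.Homotopy.Basic

/-!
# P216-D, block [D-DEG]: the standard self map of degree `D` of the sphere

`S^(m+1) ⊆ ℂ × ℝ^m`, `powS D (z, y) = (|z| (z / |z|)^D, y)`, and the parametrisation
`Bp (θ, u) = (s(u) e^(2 π i θ), u - 1/2)` (normalised), `s(u) = 1/2 - ‖u - 1/2‖`.
-/

set_option linter.all false

open Set Filter Topology

namespace Vale.Agent.P216.H779D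

/-- The sphere of dimension `m + 1`. -/
abbrev Sq (m : ℕ) : Type := Metric.sphere (0 : EuclideanSpace ℝ (Fin (m + 1 + 1))) 1

/-- `z ↦ |z| (z / |z|)^D` -/
noncomputable def pw (D : ℤ) (z : ℂ) : ℂ := ‖z‖ * (z / ‖z‖) ^ D

theorem norm_pw (D : ℤ) (z : ℂ) : ‖pw D z‖ = ‖z‖ := by
  by_cases h : z = 0
  · simp [pw, h]
  · have h' : ‖z‖ ≠ 0 := norm_ne_zero_iff.2 h
    rw [pw, norm_mul, norm_zpow, norm_div, Complex.norm_real, norm_norm, div_self h', one_zpow,
      mul_one]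

theorem pw_zero (D : ℤ) : pw D 0 = 0 := by simp [pw]

theorem continuous_pw (D : ℤ) : Continuous (pw D) := by
  rw [continuous_iff_continuousAt]
  intro z
  by_cases h : z = 0
  · subst h
    rw [ContinuousAt, pw_zero, tendsto_zero_iff_norm_tendsto_zero]
    simp only [norm_pw]
    exact (continuous_norm (E := ℂ)).tendsto' 0 0 norm_zero
  · have h' : (‖z‖ : ℂ) ≠ 0 := by exact_mod_cast norm_ne_zero_iff.2 h
    have h1 : ContinuousAt (fun z : ℂ => (‖z‖ : ℂ)) z :=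
      (Complex.continuous_ofReal.comp continuous_norm).continuousAt
    exact h1.mul ((continuousAt_id.div h1 h').zpow₀ D (Or.inl (div_ne_zero h h')))

/-- the unit complex number of argument `2 π θ` -/
noncomputable def ex (θ : ℝ) : ℂ := Complex.exp (2 * Real.pi * θ * Complex.I)

theorem norm_ex (θ : ℝ) : ‖ex θ‖ = 1 := by
  rw [ex, show (2 * Real.pi * θ * Complex.I : ℂ) = ((2 * Real.pi * θ : ℝ) : ℂ) * Complex.I by
    push_cast; ring, Complex.norm_exp_ofReal_mul_I]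

theorem continuous_ex : Continuous ex := by
  unfold ex
  fun_prop

theorem ex_re (θ : ℝ) : (ex θ).re = Real.cos (2 * Real.pi * θ) := by
  rw [ex, show (2 * Real.pi * θ * Complex.I : ℂ) = ((2 * Real.pi * θ : ℝ) : ℂ) * Complex.I by
    push_cast; ring, Complex.exp_ofReal_mul_I_re]

theorem ex_im (θ : ℝ) : (ex θ).im = Real.sin (2 * Real.pi * θ) := by
  rw [ex, show (2 * Real.pi * θ * Complex.I : ℂ) = ((2 * Real.pi * θ : ℝ) : ℂ) * Complex.I by
    push_cast; ring, Complex.exp_ofReal_mul_I_im]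

theorem ex_zpow (D : ℤ) (θ : ℝ) : ex θ ^ D = ex (D * θ) := by
  rw [ex, ex, ← Complex.exp_int_mul]
  congr 1
  push_cast
  ring

theorem ex_one : ex 1 = ex 0 := by
  rw [ex, ex]
  simp

theorem pw_ex (D : ℤ) {s : ℝ} (hs : 0 ≤ s) (θ : ℝ) : pw D (s * ex θ) = s * ex (D * θ) := by
  rcases hs.eq_or_lt with rfl | hs
  · simp [pw_zero]
  · have h : ‖(s : ℂ) * ex θ‖ = s := by
      rw [norm_mul, norm_ex, mul_one, Complex.norm_real, Real.norm_eq_abs, abs_of_pos hs]
    have hs' : (s : ℂ) ≠ 0 := by exact_mod_cast hs.ne'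
    rw [pw, h, mul_div_cancel_left₀ _ hs', ex_zpow]

/-! ### Coordinates -/

variable {m : ℕ}

/-- the point `(z, y)` of `ℂ × ℝ^m` -/
noncomputable def mk (z : ℂ) (y : Fin m → ℝ) : EuclideanSpace ℝ (Fin (m + 1 + 1)) :=
  WithLp.toLp 2 (Fin.cons z.re (Fin.cons z.im y : Fin (m + 1) → ℝ) : Fin (m + 1 + 1) → ℝ)

/-- the complex coordinate -/
noncomputable def zc (x : EuclideanSpace ℝ (Fin (m + 1 + 1))) : ℂ := ⟨x 0, x 1⟩

/-- the other coordinates -/
noncomputable def rc (x : EuclideanSpace ℝ (Fin (m + 1 + 1))) : Fin m → ℝ :=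
  fun j => x j.succ.succ

@[simp] theorem zc_mk (z : ℂ) (y : Fin m → ℝ) : zc (mk z y) = z := rfl

@[simp] theorem rc_mk (z : ℂ) (y : Fin m → ℝ) : rc (mk z y) = y := rfl

theorem mk_eta (x : EuclideanSpace ℝ (Fin (m + 1 + 1))) : mk (zc x) (rc x) = x := by
  ext i
  refine Fin.cases rfl (fun i => ?_) i
  exact Fin.cases rfl (fun _ => rfl) i

theorem ext_c {x y : EuclideanSpace ℝ (Fin (m + 1 + 1))} (h : zc x = zc y) (h' : rc x = rc y) :
    x = y := by rw [← mk_eta x, ← mk_eta y, h, h']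

theorem norm_sq_eq (x : EuclideanSpace ℝ (Fin (m + 1 + 1))) :
    ‖x‖ ^ 2 = ‖zc x‖ ^ 2 + ∑ j, rc x j ^ 2 := by
  rw [EuclideanSpace.norm_sq_eq, Fin.sum_univ_succ, Fin.sum_univ_succ, Complex.sq_norm,
    Complex.normSq_apply]
  simp only [Real.norm_eq_abs, sq_abs]
  change x 0 ^ 2 + (x 1 ^ 2 + _) = x 0 * x 0 + x 1 * x 1 + _
  rw [← add_assoc, sq (x 0), sq (x 1)]
  rfl

theorem continuous_mk {X : Type*} [TopologicalSpace X] {f : X → ℂ} {g : X → Fin m → ℝ}
    (hf : Continuous f) (hg : Continuous g) : Continuous fun x => mk (f x) (g x) := by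
  refine (PiLp.continuous_toLp 2 _).comp (continuous_pi fun i => ?_)
  refine Fin.cases ?_ (fun i => ?_) i
  · exact Complex.continuous_re.comp hf
  · refine Fin.cases ?_ (fun j => ?_) i
    · exact Complex.continuous_im.comp hf
    · exact (continuous_apply j).comp hg

theorem continuous_zc : Continuous (zc : EuclideanSpace ℝ (Fin (m + 1 + 1)) → ℂ) := by
  have h : (zc : EuclideanSpace ℝ (Fin (m + 1 + 1)) → ℂ) =
      fun x => (x 0 : ℂ) + (x 1 : ℂ) * Complex.I := by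
    funext x
    apply Complex.ext <;> simp [zc]
  rw [h]
  have h0 : ∀ i : Fin (m + 1 + 1), Continuous fun x : EuclideanSpace ℝ (Fin (m + 1 + 1)) => x i :=
    fun i => (continuous_apply i).comp (PiLp.continuous_ofLp 2 _)
  exact (Complex.continuous_ofReal.comp (h0 0)).add
    ((Complex.continuous_ofReal.comp (h0 1)).mul continuous_const)

theorem continuous_rc : Continuous (rc : EuclideanSpace ℝ (Fin (m + 1 + 1)) → Fin m → ℝ) :=
  continuous_pi fun j => (continuous_apply (j.succ.succ)).comp (PiLp.continuous_ofLp 2 _)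

theorem dist_rc_le (x y : EuclideanSpace ℝ (Fin (m + 1 + 1))) : dist (rc x) (rc y) ≤ dist x y := by
  refine (dist_pi_le_iff dist_nonneg).2 fun j => ?_
  rw [EuclideanSpace.dist_eq]
  refine Real.le_sqrt_of_sq_le ?_
  exact Finset.single_le_sum (f := fun i => dist (x i) (y i) ^ 2) (fun i _ => sq_nonneg _)
    (Finset.mem_univ j.succ.succ)

theorem zc_sub (x y : EuclideanSpace ℝ (Fin (m + 1 + 1))) : zc (x - y) = zc x - zc y := by
  apply Complex.ext <;> simp [zc]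

theorem dist_zc_le (x y : EuclideanSpace ℝ (Fin (m + 1 + 1))) : dist (zc x) (zc y) ≤ dist x y := by
  rw [dist_eq_norm, dist_eq_norm, ← zc_sub]
  have h := norm_sq_eq (x - y)
  have h1 : 0 ≤ ∑ j, rc (x - y) j ^ 2 := Finset.sum_nonneg fun _ _ => sq_nonneg _
  exact (pow_le_pow_iff_left₀ (norm_nonneg _) (norm_nonneg _) two_ne_zero).1 (by linarith)

/-! ### The map of degree `D` -/

/-- **The standard self map of degree `D`** of the sphere of dimension `m + 1`. -/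
noncomputable def powS (m : ℕ) (D : ℤ) : C(Sq m, Sq m) where
  toFun x := ⟨mk (pw D (zc x.1)) (rc x.1), by
    have h := norm_sq_eq x.1
    have h' := norm_sq_eq (mk (pw D (zc x.1)) (rc x.1))
    rw [zc_mk, rc_mk, norm_pw, ← h] at h'
    rw [mem_sphere_zero_iff_norm]
    have h1 : ‖(x : EuclideanSpace ℝ (Fin (m + 1 + 1)))‖ = 1 := norm_eq_of_mem_sphere x
    rw [h1, one_pow] at h'
    exact (pow_eq_one_iff_of_nonneg (norm_nonneg _) two_ne_zero).1 h'⟩
  continuous_toFun := by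
    refine Continuous.subtype_mk ?_ _
    exact continuous_mk ((continuous_pw D).comp (continuous_zc.comp continuous_subtype_val))
      (continuous_rc.comp continuous_subtype_val)

/-! ### The parametrisation -/

/-- the radius -/
noncomputable def sf (u : Fin m → ℝ) : ℝ := 1 / 2 - ‖fun j => u j - 1 / 2‖

/-- the vector -/
noncomputable def bv (p : ℝ × (Fin m → ℝ)) : EuclideanSpace ℝ (Fin (m + 1 + 1)) :=
  mk (sf p.2 * ex p.1) fun j => p.2 j - 1 / 2

/-- its norm -/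
noncomputable def Rf (u : Fin m → ℝ) : ℝ := Real.sqrt (sf u ^ 2 + ∑ j, (u j - 1 / 2) ^ 2)

theorem norm_bv (p : ℝ × (Fin m → ℝ)) : ‖bv p‖ = Rf p.2 := by
  have h := norm_sq_eq (bv p)
  rw [bv, zc_mk, rc_mk, norm_mul, norm_ex, mul_one, Complex.norm_real, Real.norm_eq_abs,
    sq_abs] at h
  rw [Rf, ← h, bv, Real.sqrt_sq (norm_nonneg _)]

theorem Rf_pos (u : Fin m → ℝ) : 0 < Rf u := by
  refine Real.sqrt_pos.2 ?_
  by_cases h : (fun j => u j - 1 / 2) = 0
  · have : sf u = 1 / 2 := by rw [sf, h, norm_zero, sub_zero]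
    have h1 : 0 ≤ ∑ j, (u j - 1 / 2) ^ 2 := Finset.sum_nonneg fun _ _ => sq_nonneg _
    rw [this]
    positivity
  · obtain ⟨j, hj⟩ := Function.ne_iff.1 h
    have h1 : 0 < (u j - 1 / 2) ^ 2 := by
      have : u j - 1 / 2 ≠ 0 := hj
      positivity
    have h2 : (u j - 1 / 2) ^ 2 ≤ ∑ j, (u j - 1 / 2) ^ 2 :=
      Finset.single_le_sum (f := fun j => (u j - 1 / 2) ^ 2) (fun _ _ => sq_nonneg _)
        (Finset.mem_univ j)
    have := sq_nonneg (sf u)
    linarith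

theorem bv_ne (p : ℝ × (Fin m → ℝ)) : ‖bv p‖ ≠ 0 := by
  rw [norm_bv]
  exact (Rf_pos _).ne'

/-- **The parametrisation of the sphere.** -/
noncomputable def Bp (p : ℝ × (Fin m → ℝ)) : Sq m := ⟨(Rf p.2)⁻¹ • bv p, by
  rw [mem_sphere_zero_iff_norm, norm_smul, norm_inv, Real.norm_eq_abs, abs_of_pos (Rf_pos _),
    norm_bv, inv_mul_cancel₀ (Rf_pos _).ne']⟩

theorem zc_smul (a : ℝ) (x : EuclideanSpace ℝ (Fin (m + 1 + 1))) : zc (a • x) = a * zc x := by
  apply Complex.ext <;> simp [zc]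

theorem rc_smul (a : ℝ) (x : EuclideanSpace ℝ (Fin (m + 1 + 1))) : rc (a • x) = a • rc x := rfl

theorem zc_Bp (p : ℝ × (Fin m → ℝ)) : zc (Bp p).1 = ((sf p.2 / Rf p.2 : ℝ) : ℂ) * ex p.1 := by
  change zc ((Rf p.2)⁻¹ • bv p) = _
  rw [zc_smul, bv, zc_mk]
  push_cast
  ring

theorem rc_Bp (p : ℝ × (Fin m → ℝ)) (j : Fin m) : rc (Bp p).1 j = (p.2 j - 1 / 2) / Rf p.2 := by
  change rc ((Rf p.2)⁻¹ • bv p) j = _
  rw [rc_smul, bv, rc_mk, Pi.smul_apply, smul_eq_mul, inv_mul_eq_div]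

theorem continuous_sf : Continuous (sf : (Fin m → ℝ) → ℝ) := by
  unfold sf
  fun_prop

theorem continuous_Rf : Continuous (Rf : (Fin m → ℝ) → ℝ) := by
  have := continuous_sf (m := m)
  unfold Rf
  fun_prop

theorem continuous_Bp : Continuous (Bp : ℝ × (Fin m → ℝ) → Sq m) := by
  refine Continuous.subtype_mk ?_ _
  refine ((continuous_Rf.comp continuous_snd).inv₀ fun p => (Rf_pos _).ne').smul ?_
  refine continuous_mk ?_ (by fun_prop)
  exact (Complex.continuous_ofReal.comp (continuous_sf.comp continuous_snd)).mul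
    (continuous_ex.comp continuous_fst)

theorem Bp_one (u : Fin m → ℝ) : Bp (1, u) = Bp (0, u) := by
  refine Subtype.ext (ext_c ?_ (funext fun j => ?_))
  · rw [zc_Bp, zc_Bp, ex_one]
  · rw [rc_Bp, rc_Bp]

/-- `Bp` does not depend on the angle where `sf` vanishes. -/
theorem Bp_bdry {u : Fin m → ℝ} (hu : sf u = 0) (θ θ' : ℝ) : Bp (θ, u) = Bp (θ', u) := by
  refine Subtype.ext (ext_c ?_ (funext fun j => ?_))
  · rw [zc_Bp, zc_Bp, hu]
    simp
  · rw [rc_Bp, rc_Bp]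

/-- `powS D` multiplies the angle by `D`. -/
theorem powS_Bp (D : ℤ) {u : Fin m → ℝ} (hu : 0 ≤ sf u) (θ : ℝ) :
    powS m D (Bp (θ, u)) = Bp (D * θ, u) := by
  refine Subtype.ext (ext_c ?_ (funext fun j => ?_))
  · change zc (mk (pw D (zc (Bp (θ, u)).1)) (rc (Bp (θ, u)).1)) = _
    rw [zc_mk, zc_Bp, zc_Bp, pw_ex D (div_nonneg hu (Rf_pos _).le)]
  · change rc (mk (pw D (zc (Bp (θ, u)).1)) (rc (Bp (θ, u)).1)) j = _
    rw [rc_mk, rc_Bp, rc_Bp]

theorem sf_nonneg {u : Fin m → ℝ} (hu : ∀ j, u j ∈ Icc (0 : ℝ) 1) : 0 ≤ sf u := by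
  rw [sf, sub_nonneg, pi_norm_le_iff_of_nonneg (by norm_num)]
  intro j
  rw [Real.norm_eq_abs, abs_le]
  exact ⟨by linarith [(hu j).1], by linarith [(hu j).2]⟩

theorem sf_bdry {u : Fin m → ℝ} (hu : ∀ j, u j ∈ Icc (0 : ℝ) 1) (h : ∃ j, u j = 0 ∨ u j = 1) :
    sf u = 0 := by
  refine le_antisymm ?_ (sf_nonneg hu)
  obtain ⟨j, hj⟩ := h
  rw [sf, sub_nonpos]
  refine le_trans (le_of_eq ?_) (norm_le_pi_norm (fun j => u j - 1 / 2) j)
  rw [Real.norm_eq_abs]
  rcases hj with hj | hj <;> rw [hj] <;> norm_num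

end Vale.Agent.P216.H779D
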