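import Vale.Agent.P216.H779D.DegB

/-!
# P216-D, block [D-DEG]: the crossing cochain on the unit circle

`kap (a e^(2πiθ)) (b e^(2πiθ')) = ⌈θ'⌉ - ⌈θ⌉` for `a, b > 0`, `|θ - θ'| < 1/4`.
-/

set_option linter.all false

open Set Filter Topology Finsupp

namespace Vale.Agent.P216.H779D

open Sl Tau

variable {k : Type} [Field k]

theorem cos_red (θ : ℝ) (n : ℤ) :
    Real.cos (2 * Real.pi * θ) = Real.cos (2 * Real.pi * (θ - n)) := by
  rw [show 2 * Real.pi * (θ - n) = 2 * Real.pi * θ - n * (2 * Real.pi) by ring,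
    Real.cos_sub_int_mul_two_pi]

theorem sin_red (θ : ℝ) (n : ℤ) :
    Real.sin (2 * Real.pi * θ) = Real.sin (2 * Real.pi * (θ - n)) := by
  rw [show 2 * Real.pi * (θ - n) = 2 * Real.pi * θ - n * (2 * Real.pi) by ring,
    Real.sin_sub_int_mul_two_pi]

theorem cos_pos_iff (θ : ℝ) : 0 < Real.cos (2 * Real.pi * θ) ↔ |θ - round θ| < 1 / 4 := by
  have hpi := Real.pi_pos
  rw [cos_red θ (round θ)]
  have h1 : |θ - round θ| ≤ 1 / 2 := abs_sub_round θ
  set t := θ - round θ
  constructor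
  · intro h
    by_contra hcon
    rw [not_lt] at hcon
    rw [← Real.cos_abs, abs_mul, abs_of_pos (by positivity : 0 < 2 * Real.pi)] at h
    refine absurd h (not_lt.2 (Real.cos_nonpos_of_pi_div_two_le_of_le ?_ ?_))
    · nlinarith
    · nlinarith
  · intro h
    rw [abs_lt] at h
    exact Real.cos_pos_of_mem_Ioo ⟨by nlinarith, by nlinarith⟩

theorem sin_pos_iff {θ : ℝ} {n : ℤ} (h : |θ - n| < 1 / 4) :
    0 < Real.sin (2 * Real.pi * θ) ↔ (n : ℝ) < θ := by
  have hpi := Real.pi_pos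
  rw [sin_red θ n]
  rw [abs_lt] at h
  constructor
  · intro hs
    by_contra hcon
    rw [not_lt] at hcon
    refine absurd hs (not_lt.2 (Real.sin_nonpos_of_nonpos_of_neg_pi_le ?_ ?_))
    · nlinarith
    · nlinarith
  · intro hn
    exact Real.sin_pos_of_pos_of_lt_pi (by nlinarith) (by nlinarith)

theorem ceil_gt {θ : ℝ} {n : ℤ} (h : (n : ℝ) < θ) (h' : θ ≤ n + 1) : ⌈θ⌉ = n + 1 := by
  rw [Int.ceil_eq_iff]
  push_cast
  exact ⟨by linarith, h'⟩

theorem chi_mul {a : ℝ} (ha : 0 < a) (x : ℝ) : χ₀ k (a * x) = χ₀ k x := by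
  simp only [χ₀]
  by_cases h : 0 < x
  · rw [if_pos h, if_pos (mul_pos ha h)]
  · rw [if_neg h, if_neg (by rwa [mul_pos_iff_of_pos_left ha])]

theorem chi_sin {θ : ℝ} {n : ℤ} (h : |θ - n| < 1 / 4) :
    χ₀ k (Real.sin (2 * Real.pi * θ)) = (⌈θ⌉ : k) - n := by
  have h' := abs_lt.1 h
  simp only [χ₀]
  by_cases hn : (n : ℝ) < θ
  · rw [if_pos ((sin_pos_iff h).2 hn), ceil_gt hn (by linarith)]
    push_cast
    ring
  · rw [if_neg (fun hs => hn ((sin_pos_iff h).1 hs))]
    have : ⌈θ⌉ = n := by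
      rw [Int.ceil_eq_iff]
      exact ⟨by linarith, not_lt.1 hn⟩
    rw [this, sub_self]

theorem re_ex (a : ℝ) (θ : ℝ) : ((a : ℂ) * ex θ).re = a * Real.cos (2 * Real.pi * θ) := by
  rw [Complex.re_ofReal_mul, ex_re]

theorem im_ex (a : ℝ) (θ : ℝ) : ((a : ℂ) * ex θ).im = a * Real.sin (2 * Real.pi * θ) := by
  rw [Complex.im_ofReal_mul, ex_im]

theorem ceil_eq_of_nonpos {θ θ' : ℝ} (h : ¬ 0 < Real.cos (2 * Real.pi * θ))
    (hd : |θ - θ'| < 1 / 4) : ⌈θ⌉ = ⌈θ'⌉ := by
  rw [cos_pos_iff, not_lt] at h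
  have h1 : |θ - round θ| ≤ 1 / 2 := abs_sub_round θ
  have hd' := abs_lt.1 hd
  rcases le_abs.1 h with h2 | h2
  · have h3 := (abs_le.1 h1).2
    rw [ceil_gt (n := round θ) (by linarith) (by linarith),
      ceil_gt (n := round θ) (by linarith) (by linarith)]
  · have h3 := (abs_le.1 h1).1
    have e : ∀ x : ℝ, (round θ : ℝ) - 1 < x → x ≤ round θ → ⌈x⌉ = round θ := by
      intro x hx hx'
      rw [Int.ceil_eq_iff]
      exact ⟨hx, hx'⟩
    rw [e θ (by linarith) (by linarith), e θ' (by linarith) (by linarith)]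

/-- **The crossing number.** -/
theorem kap_ex {a b : ℝ} (ha : 0 < a) (hb : 0 < b) {θ θ' : ℝ} (hd : |θ - θ'| < 1 / 4) :
    kap k (a * ex θ) (b * ex θ') = (⌈θ'⌉ : k) - (⌈θ⌉ : k) := by
  by_cases h : 0 < Real.cos (2 * Real.pi * θ)
  · by_cases h' : 0 < Real.cos (2 * Real.pi * θ')
    · rw [kap_pos (by rw [re_ex]; exact mul_pos ha h) (by rw [re_ex]; exact mul_pos hb h'),
        im_ex, im_ex, chi_mul ha, chi_mul hb]
      have h1 := (cos_pos_iff θ).1 h
      have h2 := (cos_pos_iff θ').1 h'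
      have hr : round θ = round θ' := by
        have h3 : |((round θ : ℤ) : ℝ) - ((round θ' : ℤ) : ℝ)| < 1 := by
          have e : ((round θ : ℤ) : ℝ) - ((round θ' : ℤ) : ℝ) =
              -(θ - round θ) + (θ - θ') + (θ' - round θ') := by ring
          rw [e]
          refine (abs_add_three _ _ _).trans_lt ?_
          rw [abs_neg]
          linarith
        have h4 : |round θ - round θ'| < 1 := by
          have : ((|round θ - round θ'| : ℤ) : ℝ) < 1 := by push_cast; exact h3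
          exact_mod_cast this
        have h5 := Int.abs_lt_one_iff.1 h4
        linarith
      rw [chi_sin h1, chi_sin (n := round θ) (by rw [hr]; exact h2)]
      ring
    · rw [kap_neg (fun hh => h' (by
        have := hh.2
        rw [re_ex] at this
        exact (mul_pos_iff_of_pos_left hb).1 this)),
        ceil_eq_of_nonpos h' (θ' := θ) (by rwa [abs_sub_comm]), sub_self]
  · rw [kap_neg (fun hh => h (by
      have := hh.1
      rw [re_ex] at this
      exact (mul_pos_iff_of_pos_left ha).1 this)), ceil_eq_of_nonpos h hd, sub_self]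

end Vale.Agent.P216.H779D
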