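import Vale.Agent.P216.H779D.DegC
import Vale.Agent.P216.H347.Tau2

/-!
# P216-D, block [D-DEG]: the fine fundamental cycles of the sphere

`zS ι` for a mesh `ι` of `[0, 1]`.
-/

set_option linter.all false

open Set Filter Topology Finsupp

namespace Vale.Agent.P216.H779D

open Sl Tau
open N929 (Coc Fine Cy Ex)

variable {m : ℕ} {k : Type} [Field k]

theorem mp_mp {α β γ : Type} (g : β → γ) (f : α → β) (c : Ch k α) :
    mp g (mp f c) = mp (fun x => g (f x)) c := by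
  have := lin_ext_apply (f := (mp (k := k) g) ∘ₗ mp f) (g := mp fun x => g (f x)) (fun l => by
    rw [LinearMap.comp_apply, mp_single, mp_single, mp_single, List.map_map]
    rfl) c
  simpa using this

theorem mp_id' {α : Type} (c : Ch k α) : mp (fun x => x) c = c := by
  have := lin_ext_apply (f := mp (k := k) fun x : α => x) (g := LinearMap.id) (fun l => by
    rw [mp_single, LinearMap.id_apply, List.map_id']) c
  simpa using this

/-- the total coefficient -/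
noncomputable def tot (c : Ch k ℝ) : k := ev (fun _ => 1) c

theorem mp_const {c : Ch k ℝ} (hc : c ∈ Sp k (Ln 2)) :
    mp (fun _ => (0 : ℝ)) c = single [0, 0] (tot c) := by
  have := eq_of_mem (P := Ln 2) (F := mp (k := k) (fun _ : ℝ => (0 : ℝ)))
    (G := (Finsupp.lsingle ([0, 0] : List ℝ) : k →ₗ[k] Ch k ℝ) ∘ₗ ev (fun _ : List ℝ => (1 : k)))
    (fun l hl => by
      obtain ⟨a, b, rfl⟩ := List.length_eq_two.1 hl
      rw [mp_single, LinearMap.comp_apply, ev_single, one_mul, Finsupp.lsingle_apply]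
      rfl) hc
  rw [this]
  rfl

/-- the corner path -/
noncomputable def B0 (u : Fin m → ℝ) : Sq m := Bp (0, u)

/-- **The fundamental chain of the sphere** for a mesh of `[0, 1]`. -/
noncomputable def zS (m : ℕ) (ι : Ch k ℝ) : Ch k (Sq m) :=
  mp Bp (sh ι (Qc ι m)) +
    mp B0 (mp Prod.snd (sh (single [0, 0, 0] (tot ι) : Ch k ℝ) (bd (Qc ι m))))

theorem bd_const (a : k) : bd (single [0, 0, 0] a : Ch k ℝ) = single [0, 0] a := by
  rw [bd_single, bdL_cons, bdL_cons, bdL_cons, bdL_nil]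
  simp only [map_zero, sub_zero, map_sub, cons_single, smul_sub, smul_single, smul_eq_mul, mul_one]
  abel

theorem smS_ne {δ : ℝ} {S : Set (Fin m → ℝ)} {c : Ch k (Fin m → ℝ)}
    (hc : c ∈ Sp k (SmS (m + 1) S δ)) : c ∈ Sp k (Ln (m + 1)) := Sp_mono (fun _ hl => hl.1) hc

theorem bd_zS (hm : 1 ≤ m) {δ : ℝ} (hδ : 0 < δ) {ι : Ch k ℝ} (hι : IsMesh ι 0 1 δ) :
    bd (zS m ι) = 0 := by
  have hQ := isCube_Qc hδ hι m
  have hbQ : bd (Qc ι m) ∈ Sp k (Ln ((m - 1) + 1)) := by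
    have : m - 1 + 1 = m := by omega
    rw [this]
    exact Sp_mono (fun _ hl => hl.1) hQ.bd
  have h1 := bd_sh (p := 1) (q := m) (by omega) hι.ln hQ.ln
  have h2 : mp Bp (sh (bd ι) (Qc ι m)) = 0 := by
    rw [hι.bd, map_sub, LinearMap.sub_apply, sh_point_left _ (Ln_ne hQ.ln),
      sh_point_left _ (Ln_ne hQ.ln), map_sub, mp_mp, mp_mp]
    have : (fun u : Fin m → ℝ => Bp ((1 : ℝ), u)) = fun u => Bp ((0 : ℝ), u) := funext Bp_one
    rw [this, sub_self]
  have h3 : mp Bp (sh ι (bd (Qc ι m))) = mp B0 (mp Prod.snd (sh ι (bd (Qc ι m)))) := by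
    have h4 : sh ι (bd (Qc ι m)) ∈ Sp k (fun l : List (ℝ × (Fin m → ℝ)) =>
        ∀ p ∈ l, p.2 ∈ bdc m) :=
      sh_mem (fun s t l hs ht hl p hp => ht.2.1 _ (hl.2 p hp).2) hι.mem hQ.bd
    have := eq_of_mem (P := fun l : List (ℝ × (Fin m → ℝ)) => ∀ p ∈ l, p.2 ∈ bdc m)
      (F := mp (k := k) Bp) (G := mp B0 ∘ₗ mp Prod.snd) (fun l hl => by
        rw [LinearMap.comp_apply, mp_single, mp_single, mp_single, List.map_map]
        congr 1
        refine List.map_congr_left fun p hp => ?_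
        have := hl p hp
        exact Bp_bdry (sf_bdry this.1 this.2) p.1 0) h4
    simpa using this
  have h5 : mp Prod.snd (sh ι (bd (Qc ι m))) =
      mp Prod.snd (sh (single [0, 0] (tot ι) : Ch k ℝ) (bd (Qc ι m))) := by
    rw [← mp_const hι.ln]
    conv_rhs => rw [← mp_id' (bd (Qc ι m))]
    rw [sh_mp, mp_mp]
    rfl
  have h6 := bd_sh (p := 2) (q := m - 1) (by omega)
    (single_mem (P := Ln 3) (l := ([0, 0, 0] : List ℝ)) rfl (tot ι)) hbQ
  rw [bd_const, bd_bd, map_zero, smul_zero, add_zero] at h6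
  rw [zS, map_add, bd_mp, h1, map_add, h2, zero_add, map_smul, h3, h5, bd_mp, bd_mp, h6]
  simp

/-- `Bp` is uniformly continuous on `[0, 1] × cube` -/
theorem exists_mod (m : ℕ) {ε : ℝ} (hε : 0 < ε) : ∃ δ > 0, ∀ p p' : ℝ × (Fin m → ℝ),
    p.1 ∈ Icc (0 : ℝ) 1 → p.2 ∈ cube m → p'.1 ∈ Icc (0 : ℝ) 1 → p'.2 ∈ cube m →
      dist p.1 p'.1 < δ → dist p.2 p'.2 < δ → dist (Bp p) (Bp p') < ε := by
  have hc : IsCompact (cube m) := by
    have : cube m = Set.pi univ fun _ => Icc (0 : ℝ) 1 := by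
      refine Set.ext fun v => ?_
      rw [Set.mem_univ_pi]
      rfl
    rw [this]
    exact isCompact_univ_pi fun _ => isCompact_Icc
  have h := ((isCompact_Icc (a := (0 : ℝ)) (b := 1)).prod hc).uniformContinuousOn_of_continuous
    (continuous_Bp (m := m)).continuousOn
  rw [Metric.uniformContinuousOn_iff] at h
  obtain ⟨δ, hδ, h⟩ := h ε hε
  refine ⟨δ, hδ, fun p p' h1 h2 h1' h2' h3 h4 => h p ⟨h1, h2⟩ p' ⟨h1', h2'⟩ ?_⟩
  rw [Prod.dist_eq]
  exact max_lt h3 h4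

/-- **`zS` is a fine cycle.** -/
theorem zS_cy (hm : 1 ≤ m) {ε : ℝ} (hε : 0 < ε) : ∃ δ > 0, ∀ (k : Type) [Field k] (ι : Ch k ℝ),
    IsMesh ι 0 1 δ → Cy (univ : Set (Sq m)) ε (m + 1) (zS m ι) := by
  obtain ⟨δ, hδ, hmod⟩ := exists_mod m hε
  refine ⟨δ, hδ, fun k _ ι hι => ⟨?_, by rw [bd_zS hm hδ hι]; exact Submodule.zero_mem _⟩⟩
  have hQ := isCube_Qc hδ hι m
  refine Submodule.add_mem _ ?_ ?_
  · have h1 : sh ι (Qc ι m) ∈ Sp k (fun l : List (ℝ × (Fin m → ℝ)) => l.length = m + 2 ∧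
        ∀ p ∈ l, (p.1 ∈ Icc (0 : ℝ) 1 ∧ p.2 ∈ cube m) ∧ ∀ p' ∈ l, dist p.1 p'.1 < δ ∧
          dist p.2 p'.2 < δ) := by
      refine sh_mem (fun s t l hs ht hl => ⟨?_, fun p hp => ⟨⟨?_, ?_⟩, fun p' hp' => ⟨?_, ?_⟩⟩⟩)
        hι.mem hQ.mem
      · have h1 := hs.1
        have h2 := ht.1
        have h3 := hl.1
        omega
      · exact hs.2.1 _ (hl.2 p hp).1
      · exact ht.2.1 _ (hl.2 p hp).2
      · exact hs.2.2 _ (hl.2 p hp).1 _ (hl.2 p' hp').1
      · exact ht.2.2 _ (hl.2 p hp).2 _ (hl.2 p' hp').2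
    refine map_mem _ (fun l hl => ?_) h1
    rw [mp_single]
    refine single_mem (P := fun l => l.length = m + 1 + 1 ∧ Fine (univ : Set (Sq m)) ε l) ⟨?_,
      fun _ _ => mem_univ _, fun x hx y hy => ?_⟩ _
    · rw [List.length_map]
      exact hl.1
    · obtain ⟨p, hp, rfl⟩ := List.mem_map.1 hx
      obtain ⟨p', hp', rfl⟩ := List.mem_map.1 hy
      have h2 := hl.2 p hp
      have h3 := hl.2 p' hp'
      exact hmod p p' h2.1.1 h2.1.2 h3.1.1 h3.1.2 (h2.2 p' hp').1 (h2.2 p' hp').2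
  · rw [mp_mp]
    have h1 : sh (single [0, 0, 0] (tot ι) : Ch k ℝ) (bd (Qc ι m)) ∈
        Sp k (fun l : List (ℝ × (Fin m → ℝ)) => l.length = m + 2 ∧
        ∀ p ∈ l, p.2 ∈ cube m ∧ ∀ p' ∈ l, dist p.2 p'.2 < δ) := by
      refine sh_mem (P := Ln 3) (fun s t l hs ht hl => ⟨?_, fun p hp => ⟨?_, fun p' hp' => ?_⟩⟩)
        (single_mem (P := Ln 3) (l := ([0, 0, 0] : List ℝ)) rfl (tot ι)) hQ.bd
      · have h1 : s.length = 3 := hs
        have h2 := ht.1
        have h3 := hl.1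
        omega
      · exact (ht.2.1 _ (hl.2 p hp).2).1
      · exact ht.2.2 _ (hl.2 p hp).2 _ (hl.2 p' hp').2
    refine map_mem _ (fun l hl => ?_) h1
    rw [mp_single]
    refine single_mem (P := fun l => l.length = m + 1 + 1 ∧ Fine (univ : Set (Sq m)) ε l) ⟨?_,
      fun _ _ => mem_univ _, fun x hx y hy => ?_⟩ _
    · rw [List.length_map]
      exact hl.1
    · obtain ⟨p, hp, rfl⟩ := List.mem_map.1 hx
      obtain ⟨p', hp', rfl⟩ := List.mem_map.1 hy
      have h2 := hl.2 p hp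
      have h3 := hl.2 p' hp'
      exact hmod (0, p.2) (0, p'.2) (by simp) h2.1 (by simp) h3.1
        (by rw [dist_self]; exact hδ) (h2.2 p' hp')

/-- The correction term is invisible for normalised cochains. -/
theorem ev_zS {f : List (Sq m) → k} (hf : Nrm f) {δ : ℝ} (hδ : 0 < δ) {ι : Ch k ℝ}
    (hι : IsMesh ι 0 1 δ) : ev f (zS m ι) = ev f (mp Bp (sh ι (Qc ι m))) := by
  rw [zS, map_add, mp_mp, ev_mp f (fun p : ℝ × (Fin m → ℝ) => B0 p.2)]
  have e : (fun l : List (ℝ × (Fin m → ℝ)) => f (l.map fun p => B0 p.2)) =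
      fun l => (fun l' : List (Fin m → ℝ) => f (l'.map B0)) (l.map Prod.snd) := by
    funext l
    change _ = f ((l.map Prod.snd).map B0)
    rw [List.map_map]
    rfl
  rw [e, ev_snd_zero (hf.map B0) (p := 3)
    (single_mem (P := Ln 3) (l := ([0, 0, 0] : List ℝ)) rfl _)
    (Sp_mono (fun _ hl => hl.1) (isCube_Qc hδ hι m).bd) (by norm_num), add_zero]

/-! ### Evaluation -/

theorem chi_div {R : ℝ} (hR : 0 < R) (x : ℝ) : χ₀ k (x / R) = χ₀ k x := by
  rw [div_eq_inv_mul, chi_mul (inv_pos.2 hR)]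

theorem W_div {α : Type} (y : α → Fin m → ℝ) (R : α → ℝ) (hR : ∀ a, 0 < R a) (l : List α) :
    W (χ₀ k) m (l.map fun a j => y a j / R a) = W (χ₀ k) m (l.map y) := by
  rw [W, ← cupd_map, ← cupd_map, List.map_ofFn, List.map_ofFn]
  congr 1
  congr 1
  funext j a
  exact chi_div (hR a) _

/-- the grid -/
def Gd (m : ℕ) (δ : ℝ) (l : List (ℝ × (Fin m → ℝ))) : Prop :=
  l.length = m + 2 ∧ ∀ p ∈ l, p.2 ∈ cube m ∧ ∀ p' ∈ l, dist p.1 p'.1 < δ ∧ dist p.2 p'.2 < δ

theorem grid_mem {δ : ℝ} (hδ : 0 < δ) {ι : Ch k ℝ} (hι : IsMesh ι 0 1 δ) :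
    sh ι (Qc ι m) ∈ Sp k (Gd m δ) := by
  have hQ := isCube_Qc hδ hι m
  refine sh_mem (fun s t l hs ht hl => ⟨?_, fun p hp => ⟨?_, fun p' hp' => ⟨?_, ?_⟩⟩⟩)
    hι.mem hQ.mem
  · have h1 := hs.1
    have h2 := ht.1
    have h3 := hl.1
    omega
  · exact ht.2.1 _ (hl.2 p hp).2
  · exact hs.2.2 _ (hl.2 p hp).1 _ (hl.2 p' hp').1
  · exact ht.2.2 _ (hl.2 p hp).2 _ (hl.2 p' hp').2

/-- the crossing function of degree `D` -/
noncomputable def phD (k : Type) [Field k] (D : ℤ) (θ : ℝ) : k := (⌈(D : ℝ) * θ⌉ : k)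

/-- the value of `cS ∘ powS D ∘ Bp` on the grid -/
theorem cS_Bp (D : ℤ) {δ : ℝ} (hδ8 : δ ≤ 1 / 8) (hδD : |(D : ℝ)| * δ < 1 / 4)
    {l : List (ℝ × (Fin m → ℝ))} (hl : Gd m δ l) :
    cS k m ((l.map Bp).map (powS m D)) =
      cupd [phD k D] ((l.take 2).map Prod.fst) *
        W (fun x => χ₀ k (x - 1 / 2)) m ((l.drop 1).map Prod.snd) := by
  obtain ⟨p, q, l', rfl⟩ : ∃ p q l', l = p :: q :: l' := by
    rcases l with _ | ⟨p, _ | ⟨q, l'⟩⟩
    · simp [Gd] at hl
    · simp [Gd] at hl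
    · exact ⟨p, q, l', rfl⟩
  have hW : W (χ₀ k) m ((((((p :: q :: l').map Bp).map (powS m D)).drop 1)).map rs) =
      W (χ₀ k) m ((((p :: q :: l').drop 1).map Prod.snd).map fun v j => v j - 1 / 2) := by
    rw [← List.map_drop, ← List.map_drop, List.map_map, List.map_map, List.map_map]
    have e : (rs ∘ (⇑(powS m D))) ∘ Bp =
        fun (a : ℝ × (Fin m → ℝ)) j => (fun (a : ℝ × (Fin m → ℝ)) j => a.2 j - 1 / 2) a j /
          (fun a : ℝ × (Fin m → ℝ) => Rf a.2) a := by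
      funext a j
      exact rc_Bp a j
    rw [e, W_div _ _ fun a => Rf_pos _]
    rfl
  rw [cS_apply, hW, ← W_shift]
  by_cases h0 : W (χ₀ k) m ((((p :: q :: l').drop 1).map Prod.snd).map fun v j => v j - 1 / 2) = 0
  · rw [h0, mul_zero, mul_zero]
  · congr 1
    have hδ0 : 0 < δ := dist_nonneg.trans_lt ((hl.2 p (by simp)).2 p (by simp)).1
    have hq : ‖fun j => q.2 j - 1 / 2‖ < 2 * δ := by
      by_contra hcon
      refine h0 (W_zero hδ0 (v := fun j => q.2 j - 1 / 2) ?_ ?_ (not_lt.1 hcon))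
      · intro x hx y hy
        rw [List.map_map] at hx hy
        obtain ⟨a, ha, rfl⟩ := List.mem_map.1 hx
        obtain ⟨b, hb, rfl⟩ := List.mem_map.1 hy
        have h1 := ((hl.2 a (List.mem_of_mem_drop ha)).2 b (List.mem_of_mem_drop hb)).2
        refine lt_of_le_of_lt ((dist_pi_le_iff dist_nonneg).2 fun j => ?_) h1
        change dist (a.2 j - 1 / 2) (b.2 j - 1 / 2) ≤ _
        rw [dist_sub_right]
        exact dist_le_pi_dist a.2 b.2 j
      · rw [List.map_map]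
        exact List.mem_map.2 ⟨q, by simp, rfl⟩
    have hsq : 0 < sf q.2 := by
      rw [sf]
      linarith
    have hsp : 0 < sf p.2 := by
      have h1 := ((hl.2 p (by simp)).2 q (by simp)).2
      have h2 : ‖fun j => p.2 j - 1 / 2‖ ≤ dist p.2 q.2 + ‖fun j => q.2 j - 1 / 2‖ := by
        rw [dist_eq_norm]
        have : (fun j => p.2 j - 1 / 2) = (p.2 - q.2) + fun j => q.2 j - 1 / 2 := by
          funext j
          simp only [Pi.add_apply, Pi.sub_apply]
          ring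
        rw [this]
        exact norm_add_le _ _
      rw [sf]
      linarith
    change kap k (zs (powS m D (Bp p))) (zs (powS m D (Bp q))) = cupd [phD k D] [p.1, q.1]
    rw [cupd_two, show Bp p = Bp (p.1, p.2) from rfl, show Bp q = Bp (q.1, q.2) from rfl,
      powS_Bp D hsp.le, powS_Bp D hsq.le, zs, zs, zc_Bp, zc_Bp,
      kap_ex (div_pos hsp (Rf_pos _)) (div_pos hsq (Rf_pos _))]
    · rfl
    · have h1 := ((hl.2 p (by simp)).2 q (by simp)).1
      rw [Real.dist_eq] at h1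
      rw [← mul_sub, abs_mul]
      exact (mul_le_mul_of_nonneg_left h1.le (abs_nonneg _)).trans_lt hδD

theorem ev_grid {φ : ℝ → k} {ψ : List (Fin m → ℝ) → k} {c : Ch k ℝ} (hc : c ∈ Sp k (Ln 2))
    {c' : Ch k (Fin m → ℝ)} (hc' : c' ∈ Sp k (Ln (m + 1))) :
    ev (fun l : List (ℝ × (Fin m → ℝ)) => cupd [φ] ((l.take 2).map Prod.fst) *
      ψ ((l.drop 1).map Prod.snd)) (sh c c') = ev (cupd [φ]) c * ev ψ c' := by
  set F : List (ℝ × (Fin m → ℝ)) → k := fun l => cupd [φ] ((l.take 2).map Prod.fst) *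
      ψ ((l.drop 1).map Prod.snd) with hF
  have h0 : ∀ s : List ℝ, s.length = 2 → ∀ t : List (Fin m → ℝ), t.length = m + 1 →
      ev F (Sh s t) = cupd [φ] s * ψ t := by
    intro s hs t ht
    obtain ⟨x, y, rfl⟩ := List.length_eq_two.1 hs
    have ht0 : t ≠ [] := by
      rintro rfl
      simp at ht
    have := front_left (cupd_nrm [φ]) (fun l : List (ℝ × (Fin m → ℝ)) => ψ (l.map Prod.snd)) 1
      [x, y] t (by rw [ht, List.length_cons, List.length_cons, List.length_nil]; omega)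
      (by simp) ht0
    rw [if_pos (by simp)] at this
    refine this.trans ?_
    change cupd [φ] [x, y] * ev _ (Sh [y] t) = _
    rw [Sh_point_left y ht0, ev_single, one_mul, List.map_map]
    congr 2
    exact List.map_id' t
  have h1 : ∀ s : List ℝ, s.length = 2 → ev F (sh (single s 1) c') = cupd [φ] s * ev ψ c' := by
    intro s hs
    have := eq_of_mem (P := Ln (m + 1))
      (F := ev F ∘ₗ (sh (k := k) (α := ℝ) (β := Fin m → ℝ)) (single s 1))
      (G := cupd [φ] s • ev ψ)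
      (fun t ht => by
        rw [LinearMap.comp_apply, sh_single, h0 s hs t ht, LinearMap.smul_apply, ev_single,
          one_mul, smul_eq_mul]) hc'
    simpa only [LinearMap.comp_apply, LinearMap.smul_apply, smul_eq_mul] using this
  have := eq_of_mem (P := Ln 2)
    (F := ev F ∘ₗ (sh (k := k) (α := ℝ) (β := Fin m → ℝ)).flip c')
    (G := (ev ψ c') • ev (cupd [φ]))
    (fun s hs => by
      rw [LinearMap.comp_apply, LinearMap.flip_apply, h1 s hs, LinearMap.smul_apply, ev_single,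
        one_mul, smul_eq_mul, mul_comm]) hc
  rw [mul_comm]
  simpa only [LinearMap.comp_apply, LinearMap.flip_apply, LinearMap.smul_apply, smul_eq_mul]
    using this

/-- **The degree of `powS D`.** -/
theorem ev_powS (D : ℤ) {δ : ℝ} (hδ : 0 < δ) (hδ8 : δ ≤ 1 / 8) (hδD : |(D : ℝ)| * δ < 1 / 4)
    {ι : Ch k ℝ} (hι : IsMesh ι 0 1 δ) :
    ev (fun l => cS k m (l.map (powS m D))) (zS m ι) = (D : k) := by
  rw [ev_zS (cS_nrm.map _) hδ hι, ev_mp,
    ev_congr (fun l hl => cS_Bp D hδ8 hδD hl) (grid_mem hδ hι),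
    ev_grid hι.ln (isCube_Qc hδ hι m).ln, ev_cupd_mesh _ hι, ev_W_Qc _ hδ hι, chi_one, chi_zero,
    sub_zero, one_pow, mul_one, phD, phD, mul_one, mul_zero, Int.ceil_zero, Int.ceil_intCast,
    Int.cast_zero, sub_zero]

end Vale.Agent.P216.H779D
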