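import Vale.Agent.P216.H779D.DegD
import Vale.Agent.P216.H787.Pro

/-!
# P216-D, block [D-DEG]: the class `f^* [generator]` of a space with a map from the sphere

`f : X → S^(m+1)`, `g : S^(m+1) → X`, `f ∘ g` homotopic to `powS m D`.
-/

set_option linter.all false

open Set Filter Topology Finsupp

namespace Vale.Agent.P216.H779D

open Sl Tau
open N929 (Coc Fine Cy Ex)

variable {m : ℕ}

/-- a modulus of continuity of a continuous map between compact metric spaces -/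
theorem exists_modulus {X Y : Type} [PseudoMetricSpace X] [CompactSpace X] [PseudoMetricSpace Y]
    (f : C(X, Y)) {ε : ℝ} (hε : 0 < ε) : ∃ δ > 0, ∀ x y : X, dist x y < δ → dist (f x) (f y) < ε := by
  have h := CompactSpace.uniformContinuous_of_continuous f.continuous
  rw [Metric.uniformContinuous_iff] at h
  obtain ⟨δ, hδ, h⟩ := h ε hε
  exact ⟨δ, hδ, fun x y hxy => h hxy⟩

theorem fine_map {X Y : Type} [PseudoMetricSpace X] [PseudoMetricSpace Y] {f : X → Y} {ε δ : ℝ}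
    (h : ∀ x y : X, dist x y < δ → dist (f x) (f y) < ε) {l : List X} (hl : Fine univ δ l) :
    Fine univ ε (l.map f) := by
  refine ⟨fun _ _ => mem_univ _, fun x hx y hy => ?_⟩
  obtain ⟨a, ha, rfl⟩ := List.mem_map.1 hx
  obtain ⟨b, hb, rfl⟩ := List.mem_map.1 hy
  exact h _ _ (hl.2 a ha b hb)

/-- pullback of cocycles -/
theorem coc_map {k : Type} [Field k] {X Y : Type} [PseudoMetricSpace X] [PseudoMetricSpace Y]
    {f : X → Y} {ε δ : ℝ} (h : ∀ x y : X, dist x y < δ → dist (f x) (f y) < ε) {d : ℕ}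
    {c : List Y → k} (hc : Coc univ ε d c) : Coc univ δ d fun l => c (l.map f) := by
  intro l hl hf
  rw [Sl.dl_map]
  exact hc _ (by rw [List.length_map]; exact hl) (fine_map h hf)

/-- push forward of cycles -/
theorem cy_map {k : Type} [Field k] {X Y : Type} [PseudoMetricSpace X] [PseudoMetricSpace Y]
    {f : X → Y} {ε δ : ℝ} (h : ∀ x y : X, dist x y < δ → dist (f x) (f y) < ε) {d : ℕ}
    (hd : d ≠ 0) {z : Ch k X} (hz : Cy univ δ d z) : Cy univ ε d (mp f z) := by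
  refine ⟨map_mem _ (fun l hl => ?_) hz.1, ?_⟩
  · rw [mp_single]
    exact single_mem (P := fun l => l.length = d + 1 ∧ Fine (univ : Set Y) ε l)
      ⟨by rw [List.length_map]; exact hl.1, fine_map h hl.2⟩ _
  · rw [bd_mp, N929.bd_eq_zero hz hd, map_zero]
    exact Submodule.zero_mem _

/-- **Homotopy invariance of the evaluation on the fundamental cycles.** -/
theorem ev_homotopic (hm : 1 ≤ m) {X : Type} [PseudoMetricSpace X] {g₀ g₁ : C(Sq m, X)}
    (h : g₀.Homotopic g₁) {ε : ℝ} (hε : 0 < ε) : ∃ δ > 0, ∀ (k : Type) [Field k] (f : List X → k),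
      Coc univ ε (m + 1) f → ∀ ι : Ch k ℝ, IsMesh ι 0 1 δ →
        ev (fun l => f (l.map g₁)) (zS m ι) = ev (fun l => f (l.map g₀)) (zS m ι) := by
  obtain ⟨K⟩ := h
  have hK : Continuous fun p : Sq m × ℝ => K (projIcc 0 1 zero_le_one p.2, p.1) := by
    fun_prop
  have hu := ((isCompact_univ (X := Sq m)).prod
    (isCompact_Icc (a := (0 : ℝ)) (b := 1))).uniformContinuousOn_of_continuous hK.continuousOn
  rw [Metric.uniformContinuousOn_iff] at hu
  obtain ⟨η, hη, hu⟩ := hu ε hε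
  obtain ⟨δ, hδ, hz⟩ := zS_cy hm hη
  refine ⟨δ, hδ, fun k _ f hf ι hι => ?_⟩
  have hc := hz k ι hι
  obtain ⟨ι', hι'⟩ := exists_isMesh k (b := 1) zero_le_one hη
  have hcn : zS m ι ∈ Sp k (Ln (m + 1 + 1)) := Sp_mono (fun l hl => hl.1) hc.1
  have key := hom f hcn hι'.ln hι'.bd (fun p : Sq m × ℝ => K (projIcc 0 1 zero_le_one p.2, p.1))
    ?_ ?_
  · have e0 : (fun x : Sq m => K (projIcc (0 : ℝ) 1 zero_le_one 0, x)) = g₀ := by
      funext x
      rw [projIcc_left]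
      exact K.apply_zero x
    have e1 : (fun x : Sq m => K (projIcc (0 : ℝ) 1 zero_le_one 1, x)) = g₁ := by
      funext x
      rw [projIcc_right]
      exact K.apply_one x
    simp only at key
    rw [e0, e1, ev_mp, ev_mp] at key
    exact key
  · rw [ev_mp]
    have h1 : sh (zS m ι) ι' ∈ Sp k (fun L : List (Sq m × ℝ) => L.length = m + 1 + 2 ∧
        ∀ p ∈ L, p.2 ∈ Icc (0 : ℝ) 1 ∧ ∀ p' ∈ L, dist p.1 p'.1 < η ∧ dist p.2 p'.2 < η) := by
      refine sh_mem (fun s t L hs ht hL => ⟨?_, fun p hp => ⟨?_, fun p' hp' => ⟨?_, ?_⟩⟩⟩)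
        hc.1 hι'.mem
      · have h1 := hs.1
        have h2 := ht.1
        have h3 := hL.1
        omega
      · exact ht.2.1 _ (hL.2 p hp).2
      · exact hs.2.2 _ (hL.2 p hp).1 _ (hL.2 p' hp').1
      · exact ht.2.2 _ (hL.2 p hp).2 _ (hL.2 p' hp').2
    refine ev_zero_of (fun L hL => ?_) h1
    refine hf _ (by rw [List.length_map]; exact hL.1) ⟨fun _ _ => mem_univ _, fun x hx y hy => ?_⟩
    obtain ⟨p, hp, rfl⟩ := List.mem_map.1 hx
    obtain ⟨p', hp', rfl⟩ := List.mem_map.1 hy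
    have h2 := hL.2 p hp
    have h3 := hL.2 p' hp'
    refine hu p ⟨mem_univ _, h2.1⟩ p' ⟨mem_univ _, h3.1⟩ ?_
    rw [Prod.dist_eq]
    exact max_lt (h2.2 p' hp').1 (h2.2 p' hp').2
  · rw [N929.bd_eq_zero hc (by omega), map_zero, LinearMap.zero_apply, map_zero, map_zero]

section Space

variable {X : Type} [MetricSpace X]

/-- **The class `f^* [generator]`.** -/
noncomputable def omc (k : Type) [Field k] (f : C(X, Sq m)) (l : List X) : k := cS k m (l.map f)

theorem omc_nrm (k : Type) [Field k] (f : C(X, Sq m)) : Nrm (omc k f) := cS_nrm.map f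

theorem omc_coc [CompactSpace X] (f : C(X, Sq m)) : ∃ ε > 0, ∀ (k : Type) [Field k],
    Coc (univ : Set X) ε (m + 1) (omc k f) := by
  obtain ⟨δ, hδ, h⟩ := exists_modulus f (epsS_pos m)
  exact ⟨δ, hδ, fun k _ => coc_map h cS_coc⟩

theorem omc_cocL [CompactSpace X] (k : Type) [Field k] (f : C(X, Sq m)) :
    CocL (univ : Set X) (m + 1) (omc k f) := by
  obtain ⟨ε, hε, h⟩ := omc_coc f
  exact ⟨ε, hε, h k⟩

/-- **The evaluation of `g^* f^* [generator]` on the fundamental cycles is the degree.** -/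
theorem ev_omc (hm : 1 ≤ m) {D : ℤ} {f : C(X, Sq m)} {g : C(Sq m, X)}
    (h : (f.comp g).Homotopic (powS m D)) : ∃ δ > 0, ∀ (k : Type) [Field k] (ι : Ch k ℝ),
      IsMesh ι 0 1 δ → ev (fun l => omc k f (l.map g)) (zS m ι) = (D : k) := by
  obtain ⟨δ, hδ, h1⟩ := ev_homotopic hm h (epsS_pos m)
  refine ⟨min δ (min (1 / 8) (1 / (4 * (|(D : ℝ)| + 1)) / 2)), by positivity, fun k _ ι hι => ?_⟩
  have hι1 : IsMesh ι 0 1 δ :=
    ⟨Sp_mono (fun l hl => hl.mono (min_le_left _ _)) hι.mem, hι.bd⟩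
  have e : (fun l : List (Sq m) => omc k f (l.map g)) =
      fun l => cS k m (l.map (f.comp g)) := by
    funext l
    rw [omc, List.map_map]
    rfl
  rw [e, ← h1 k (cS k m) cS_coc ι hι1]
  refine ev_powS D (by positivity) ((min_le_right _ _).trans (min_le_left _ _)) ?_ hι
  have hD : 0 ≤ |(D : ℝ)| := abs_nonneg _
  have h2 : min δ (min (1 / 8) (1 / (4 * (|(D : ℝ)| + 1)) / 2)) ≤ 1 / (4 * (|(D : ℝ)| + 1)) / 2 :=
    (min_le_right _ _).trans (min_le_right _ _)
  refine (mul_le_mul_of_nonneg_left h2 hD).trans_lt ?_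
  rw [div_div, mul_one_div, div_lt_div_iff₀ (by positivity) (by norm_num)]
  nlinarith

/-- `g^* f^* [generator]` is not exact on the sphere. -/
theorem not_exL_omc_comp (hm : 1 ≤ m) {D : ℤ} {f : C(X, Sq m)} {g : C(Sq m, X)}
    (h : (f.comp g).Homotopic (powS m D)) (k : Type) [Field k] (hD : (D : k) ≠ 0) :
    ¬ ExL (univ : Set (Sq m)) (m + 1) fun l => omc k f (l.map g) := by
  rw [N929.not_ex_iff]
  intro ε hε
  obtain ⟨δ, hδ, h1⟩ := ev_omc hm h
  obtain ⟨δ', hδ', h2⟩ := zS_cy hm hε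
  obtain ⟨ι, hι⟩ := exists_isMesh k (b := 1) zero_le_one (lt_min hδ hδ')
  refine ⟨zS m ι, h2 k ι ⟨Sp_mono (fun l hl => hl.mono (min_le_right _ _)) hι.mem, hι.bd⟩, ?_⟩
  rw [h1 k ι ⟨Sp_mono (fun l hl => hl.mono (min_le_left _ _)) hι.mem, hι.bd⟩]
  exact hD

/-- `f^* [generator]` is not exact. -/
theorem not_exL_omc (hm : 1 ≤ m) {D : ℤ} {f : C(X, Sq m)} {g : C(Sq m, X)}
    (h : (f.comp g).Homotopic (powS m D)) (k : Type) [Field k] (hD : (D : k) ≠ 0) :
    ¬ ExL (univ : Set X) (m + 1) (omc k f) := by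
  rw [N929.not_ex_iff]
  intro ε hε
  obtain ⟨δ, hδ, h1⟩ := ev_omc hm h
  obtain ⟨η, hη, h3⟩ := exists_modulus g hε
  obtain ⟨δ', hδ', h2⟩ := zS_cy hm hη
  obtain ⟨ι, hι⟩ := exists_isMesh k (b := 1) zero_le_one (lt_min hδ hδ')
  refine ⟨mp g (zS m ι), cy_map h3 (by omega) (h2 k ι
    ⟨Sp_mono (fun l hl => hl.mono (min_le_right _ _)) hι.mem, hι.bd⟩), ?_⟩
  rw [ev_mp, h1 k ι ⟨Sp_mono (fun l hl => hl.mono (min_le_left _ _)) hι.mem, hι.bd⟩]
  exact hD

/-- **A fundamental pro-cycle of the sphere** with value `1` on `g^* f^* [generator]`. -/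
theorem exists_pro_omc (hm : 1 ≤ m) {D : ℤ} [CompactSpace X] {f : C(X, Sq m)} {g : C(Sq m, X)}
    (h : (f.comp g).Homotopic (powS m D)) (k : Type) [Field k] (hD : (D : k) ≠ 0) :
    ∃ H : ProCy k (univ : Set (Sq m)) (m + 1),
      ∀ i, ev (fun l => omc k f (l.map g)) (H.h i) = 1 := by
  obtain ⟨ε, hε, h1⟩ := omc_coc f
  obtain ⟨δ, hδ, h2⟩ := exists_modulus g hε
  obtain ⟨H, -, h3⟩ := exists_pro (X := (univ : Set (Sq m))) (D := m + 1) (k := k)
    isCompact_univ.totallyBounded (by omega) hδ (coc_map h2 (h1 k)) (not_exL_omc_comp hm h k hD)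
  exact ⟨H, h3⟩

end Space

end Vale.Agent.P216.H779D
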